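import Vale.Agent.P253.Core
import Vale.Agent.P253.Ray
import Vale.Agent.P253.Low
import Vale.Agent.P253.Area
import Vale.Agent.P253.Red
import Vale.Agent.P253.Fin

namespace Vale.Agent.Results.P253.Domains

open Vale.Agent.P253 Set

/-- An open subset of `ℂⁿ` with a complete Kaehler metric of nonnegative holomorphic bisectional
curvature is pseudoconvex. -/
theorem result : ∀ (n : ℕ) (Ω : Set (E n)) (g : E n → Matrix (Fin n) (Fin n) ℂ), IsOpen Ω →
    IsKaehler Ω g → NonnegBisec Ω g → IsCompleteM Ω g → Pseudoconvex Ω := by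
  intro n Ω g hΩ hg hb hc
  by_contra hn
  obtain ⟨f, b, hT⟩ := red hΩ hn
  have hF : Differentiable ℂ fun z => f z + b z := hT.df.add hT.db
  have hin : ∀ z ∈ pd 1, f z + b z ∈ Ω := fun z hz => by
    simpa using hT.ins 1 ⟨zero_le_one, le_rfl⟩ z (by linarith [(mem_pd.1 hz).1])
      (Or.inr (mem_pd.1 hz).2)
  obtain ⟨s1, s2⟩ := pull hΩ hg hb hF (pd_open 1) hin
  obtain ⟨c, c0, hl⟩ := low hΩ hg hb hT
  have hv : Differentiable ℂ fun z i => deriv (fun z => f z + b z) z i :=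
    differentiable_pi.2 fun i => (EuclideanSpace.proj (𝕜 := ℂ) i).differentiable.comp hF.deriv
  have hi := area hΩ hg hT
  have e : ∀ z, NN g f b 1 z = nsq (g (f z + b z)) fun i => deriv (fun z => f z + b z) z i :=
    fun z => by simp [NN, deriv_fun_add (hT.df z) (hT.db z)]
  simp only [e] at hi
  obtain ⟨δ, ρ, d0, r0, r1, j1, j2⟩ := core s1 s2 c0 hl hv hi
  have sb : pd ρ ⊆ pd 1 := fun z k => mem_pd.2 ⟨(mem_pd.1 k).1.trans_le r1, (mem_pd.1 k).2⟩
  obtain ⟨u, u1, u2⟩ := ray r0 d0 ((core_cont s1 hv.continuous.continuousOn).mono sb)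
    (fun z k => nsq_nonneg (s1.pos z (sb k)) _) j2
  refine hT.out (fin_mem hΩ hg hc hF r0 u1 (fun s hs => hin _ (sb (mem_pd.2 ⟨?_, ?_⟩))) u2)
  · rw [norm_mul, u1, mul_one, Complex.norm_real, Real.norm_of_nonneg hs.1.le]
    exact hs.2
  · exact mul_ne_zero (Complex.ofReal_ne_zero.2 hs.1.ne') (norm_pos_iff.1 (u1 ▸ one_pos))

end Vale.Agent.Results.P253.Domains
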