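import Vale.Agent.P253H.Main

namespace Vale.Agent.Results.P253.Hartogs

open Vale.Agent.P253
open scoped Manifold ContDiff

/-- A complete Kaehler manifold of nonnegative holomorphic bisectional curvature with an injective
holomorphic immersion into some `ℂ ^ N` has the Hartogs extension property. -/
theorem result : ∀ (n N : ℕ) (X : Type) [TopologicalSpace X] [ChartedSpace (E n) X]
    (G : X → E n → Matrix (Fin n) (Fin n) ℂ) (h : X → E N), IsCMfd (E n) X →
    MKaehler G → MNonneg G → MComplete G → HolM (E n) (E N) h Set.univ →
    Function.Injective h → ImmM (E n) (E N) h → HartogsExt n X := by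
  intro n N X _ _ G h h0 h1 h2 h3 h4 h5 h6
  have : IsManifold 𝓘(ℂ, E n) ω X := h0
  exact hartogs_ext ⟨h1, h2, mdifferentiableOn_univ.1 h4, h6⟩ h5 h3

end Vale.Agent.Results.P253.Hartogs
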