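import Vale.Agent.P253K.Main

namespace Vale.Agent.Results.P253.Local

open Vale.Agent.P253
open scoped Manifold ContDiff

/-- Every holomorphic immersion of a complete Kaehler manifold of nonnegative holomorphic
bisectional curvature into a complex manifold has the Hartogs lifting property. -/
theorem result : ∀ (n N : ℕ) (X Y : Type) [TopologicalSpace X] [T2Space X] [ChartedSpace (E n) X]
    [TopologicalSpace Y] [T2Space Y] [ChartedSpace (E N) Y]
    (G : X → E n → Matrix (Fin n) (Fin n) ℂ) (h : X → Y), IsCMfd (E n) X → IsCMfd (E N) Y →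
    MKaehler G → MNonneg G → MComplete G → HolM (E n) (E N) h Set.univ →
    ImmM (E n) (E N) h → HartogsRel n N h := by
  intro n N X Y _ _ _ _ _ _ G h h0 h0' h1 h2 h3 h4 h6
  have : IsManifold 𝓘(ℂ, E n) ω X := h0
  have : IsManifold 𝓘(ℂ, E N) ω Y := h0'
  exact K.hartogs_rel ⟨h1, h2, mdifferentiableOn_univ.1 h4, h6⟩ h3

end Vale.Agent.Results.P253.Local
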